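import Vale.Agent.Lib.P036.Arcs

/-!
P036, hand-in: Heilbronn's triangle problem for point sets which lie on few monotone convex arcs.
`area p q r` is the area of the triangle with vertices `p`, `q`, `r`.
-/

namespace Vale.Agent.Results.P036.ConvexArcs

open Vale.Agent.P036

theorem result (k : ℕ) (hk : 0 < k) (P : Finset (ℝ × ℝ))
    (hP : ∀ p ∈ P, p.1 ∈ Set.Icc (0 : ℝ) 1 ∧ p.2 ∈ Set.Icc (0 : ℝ) 1)
    -- `k` arcs: graphs over convex sets `S j ⊆ ℝ` of functions which are monotone or antitone and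
    -- convex or concave on `S j`
    (S : Fin k → Set ℝ) (g : Fin k → ℝ → ℝ)
    (hmono : ∀ j, MonotoneOn (g j) (S j) ∨ AntitoneOn (g j) (S j))
    (hconv : ∀ j, ConvexOn ℝ (S j) (g j) ∨ ConcaveOn ℝ (S j) (g j))
    -- every point of `P` is on one of the arcs
    (hcov : ∀ p ∈ P, ∃ j, p.1 ∈ S j ∧ p.2 = g j p.1) (hn : 4 * k ≤ P.card) :
    (∃ p ∈ P, ∃ q ∈ P, ∃ r ∈ P, p ≠ q ∧ p ≠ r ∧ q ≠ r ∧
      area p q r ≤ 500 * ((k : ℝ) / P.card) ^ 3) ∧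
    (k ^ 3 ≤ P.card → ∃ p ∈ P, ∃ q ∈ P, ∃ r ∈ P, p ≠ q ∧ p ≠ r ∧ q ≠ r ∧
      area p q r ≤ 500 / (P.card : ℝ) ^ 2) := by
  obtain ⟨p, hp, q, hq, r, hr, h1, h2, h3, h4⟩ := arcs hk P hP S g hmono hconv hcov hn
  refine ⟨⟨p, hp, q, hq, r, hr, h1, h2, h3, h4⟩, fun hk3 =>
    ⟨p, hp, q, hq, r, hr, h1, h2, h3, h4.trans ?_⟩⟩
  have hPr : (0 : ℝ) < P.card := by
    have : 0 < P.card := by omega
    exact_mod_cast this
  have hk3' : (k : ℝ) ^ 3 ≤ P.card := by exact_mod_cast hk3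
  rw [div_pow, ← mul_div_assoc, div_le_div_iff₀ (by positivity) (by positivity)]
  have : (P.card : ℝ) ^ 3 = P.card * (P.card : ℝ) ^ 2 := by ring
  rw [this]
  nlinarith [mul_le_mul_of_nonneg_right hk3' (sq_nonneg (P.card : ℝ))]

end Vale.Agent.Results.P036.ConvexArcs
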